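import Vale.Agent.N049D.Deg

namespace Vale.Agent.Results.P049.A0Degrees

open Vale.Agent.N049D

/-- (1) One deterministic polynomial time machine realises every degree sequence `D` with entries
at most `Δ` and with large even sum by a simple graph of logarithmic girth all of whose adjacency
eigenvalues except the largest one (`eigenvalues₀` lists them in decreasing order) have absolute
value at most `2 √(Δ - 1)`.
(2) One machine realises every such `D` by a simple graph of logarithmic girth whose Bethe Hessian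
`H`, at a point `r` just above the square root of the branching number of `D`, has `H (-r)`
positive semidefinite and `H r` nonnegative on a hyperplane. -/
theorem result :
    (∃ out : List ℕ → List Bool, PolyTime unaryList out ∧
      ∀ (Δ : ℕ) (D : List ℕ), 3 ≤ Δ → (∀ k ∈ D, k ≤ Δ) → Even D.sum → Δ ^ 10 ^ 8 ≤ D.sum →
        ∃ (G : SimpleGraph (Fin D.length)) (_ : DecidableRel G.Adj),
          out D = adjWord G ∧ (∀ i, G.degree i = D[i]) ∧
          ((Nat.log (Δ + 1) D.sum / 10 ^ 6 : ℕ) : ℕ∞) < G.egirth ∧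
          ∀ i, i.val ≠ 0 →
            |(G.isHermitian_adjMatrix ℝ).eigenvalues₀ i| ≤ 2 * √((Δ : ℝ) - 1)) ∧
    ∃ out : List ℕ → List Bool, PolyTime unaryList out ∧
      ∀ (Δ : ℕ) (D : List ℕ), 3 ≤ Δ → (∀ k ∈ D, k ≤ Δ) → Even D.sum → Δ ^ 10 ^ 8 ≤ D.sum →
        ∃ (G : SimpleGraph (Fin D.length)) (_ : DecidableRel G.Adj),
          out D = adjWord G ∧ (∀ i, G.degree i = D[i]) ∧
          ((Nat.log (Δ + 1) D.sum / 10 ^ 6 : ℕ) : ℕ∞) < G.egirth ∧
          ∃ r : ℝ, √(max 2 (branching D)) ≤ r ∧
            r ≤ √(max 2 (branching D)) * (1 + (D.sum : ℝ) ^ (-(33 / 100 : ℝ))) ∧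
            (betheHessian G (-r)).PosSemidef ∧
            ∀ x, ∑ i, (G.degree i : ℝ) * x i = 0 → 0 ≤ x ⬝ᵥ (betheHessian G r).mulVec x :=
  ⟨degrees, bethe⟩

end Vale.Agent.Results.P049.A0Degrees
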