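import Vale.Agent.N049D.Sharp

namespace Vale.Agent.Results.P049.A0Planted

open Vale.Agent.N049D

/-- (1) Let `H` be a finite graph of maximum degree at most `d` whose Bethe Hessian at `√(d - 1)`
is positive definite. A deterministic polynomial time machine (input `n` in unary) outputs, for
all large `n` with `d * n` even, a simple `d`-regular Ramanujan graph on `n` vertices which
contains `H` as an induced subgraph, with every cycle of length at most `log₂ n / C` inside the
copy of `H`.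
(2) If that matrix is not positive semidefinite, then no large `d`-regular graph containing `H`
is Ramanujan, not even one-sided.
(3) The graphs can be given any prescribed girth `g ≥ 3`. -/
theorem result :
    (∀ d : ℕ, 3 ≤ d → ∀ (h : ℕ) (H : SimpleGraph (Fin h)) [DecidableRel H.Adj],
      (∀ v, H.degree v ≤ d) → (betheHessian H √((d : ℝ) - 1)).PosDef →
      ∃ out : ℕ → List Bool, PolyTime (fun n => List.replicate n true) out ∧
        ∃ n₀ C : ℕ, ∀ n : ℕ, n₀ ≤ n → Even (d * n) →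
          ∃ (G : SimpleGraph (Fin n)) (_ : DecidableRel G.Adj),
            out n = adjWord G ∧ G.IsRegularOfDegree d ∧
            (∀ (μ : ℝ) (x : Fin n → ℝ), x ≠ 0 → ∑ i, x i = 0 →
              (G.adjMatrix ℝ).mulVec x = μ • x → |μ| ≤ 2 * √((d : ℝ) - 1)) ∧
            ∃ f : H ↪g G, ∀ (u : Fin n) (c : G.Walk u u), c.IsCycle →
              C * c.length ≤ Nat.log 2 n → ∀ e ∈ c.edges, e ∈ (H.map f.toEmbedding).edgeSet) ∧
    (∀ d : ℕ, 3 ≤ d → ∀ (h : ℕ) (H : SimpleGraph (Fin h)) [DecidableRel H.Adj],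
      ¬ (betheHessian H √((d : ℝ) - 1)).PosSemidef →
      ∃ n₁ : ℕ, ∀ n : ℕ, n₁ ≤ n → ∀ (G : SimpleGraph (Fin n)) [DecidableRel G.Adj],
        G.IsRegularOfDegree d → H.IsContained G →
        ∃ (μ : ℝ) (x : Fin n → ℝ), x ≠ 0 ∧ ∑ i, x i = 0 ∧
          (G.adjMatrix ℝ).mulVec x = μ • x ∧ 2 * √((d : ℝ) - 1) < μ) ∧
    ∀ d g : ℕ, 3 ≤ d → 3 ≤ g →
      ∃ out : ℕ → List Bool, PolyTime (fun n => List.replicate n true) out ∧
        ∃ n₀ : ℕ, ∀ n : ℕ, n₀ ≤ n → Even (d * n) →
          ∃ (G : SimpleGraph (Fin n)) (_ : DecidableRel G.Adj),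
            out n = adjWord G ∧ G.IsRegularOfDegree d ∧
            (∀ (μ : ℝ) (x : Fin n → ℝ), x ≠ 0 → ∑ i, x i = 0 →
              (G.adjMatrix ℝ).mulVec x = μ • x → |μ| ≤ 2 * √((d : ℝ) - 1)) ∧ G.egirth = g :=
  ⟨fun _ hd _ H _ => planted hd H, fun _ hd _ H _ => sharp hd H, fun _ _ => girth_eq⟩

end Vale.Agent.Results.P049.A0Planted
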