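import Vale.Agent.N049.Main

namespace Vale.Agent.Results.P049.A0Uniform

/-- One deterministic polynomial time Turing machine (input: `d` and `n` in unary, separated by
`false`; output: a matrix row by row) outputs, for all `d ≥ 3` and all `n ≥ d ^ 10 ^ 8` with
`d * n` even, the adjacency matrix of a simple `d`-regular graph on `n` vertices which satisfies
the Ramanujan bound with a margin `1 - n ^ (-0.663)` and has girth larger than
`log_(d+1) n / 10 ^ 6`; for every such `n`, of either parity, the same output is the biadjacency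
matrix of a simple `d`-regular bipartite graph on `n + n` vertices with the same margin and the
same bound on the girth. -/
theorem result :
    ∃ (out : ℕ × ℕ → List Bool)
      (M : Turing.TM2ComputableInPolyTime
        (fun q : ℕ × ℕ => List.replicate q.1 true ++ false :: List.replicate q.2 true)
        (fun w : List Bool => w) out),
      (∀ k, Finite (M.tm.Γ k)) ∧
      ∀ d n : ℕ, 3 ≤ d → d ^ 10 ^ 8 ≤ n →
        (Even (d * n) → ∃ (G : SimpleGraph (Fin n)) (_ : DecidableRel G.Adj),
          G.IsRegularOfDegree d ∧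
          out (d, n) = (List.finRange n).flatMap
            (fun i => (List.finRange n).map fun j => decide (G.Adj i j)) ∧
          (∀ (μ : ℝ) (x : Fin n → ℝ), x ≠ 0 → ∑ i, x i = 0 →
            (G.adjMatrix ℝ).mulVec x = μ • x →
            |μ| ≤ 2 * √((d : ℝ) - 1) * (1 - (n : ℝ) ^ (-(663 / 1000 : ℝ)))) ∧
          ((Nat.log (d + 1) n / 10 ^ 6 : ℕ) : ℕ∞) < G.egirth ∧
          G.Connected ∧ ¬ G.IsBipartite) ∧
        ∃ (B : SimpleGraph (Fin n ⊕ Fin n)) (_ : DecidableRel B.Adj),
          (∀ i j, ¬ B.Adj (.inl i) (.inl j)) ∧ (∀ i j, ¬ B.Adj (.inr i) (.inr j)) ∧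
          B.IsRegularOfDegree d ∧
          out (d, n) = (List.finRange n).flatMap
            (fun i => (List.finRange n).map fun j => decide (B.Adj (.inl i) (.inr j))) ∧
          (∀ (μ : ℝ) (x : Fin n ⊕ Fin n → ℝ), x ≠ 0 → ∑ i, x (.inl i) = 0 →
            ∑ i, x (.inr i) = 0 → (B.adjMatrix ℝ).mulVec x = μ • x →
            |μ| ≤ 2 * √((d : ℝ) - 1) * (1 - (n : ℝ) ^ (-(663 / 1000 : ℝ)))) ∧
          ((Nat.log (d + 1) n / 10 ^ 6 : ℕ) : ℕ∞) < B.egirth :=
  Vale.Agent.N049.uniform

end Vale.Agent.Results.P049.A0Uniform
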